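import Vale.Agent.P267.H283.Elk
import Vale.Agent.P290.H445.Uni

/-!
# P290: unimodularity of the lattice of Chern classes, without negative definiteness

Input: the finitely generated group `Z` of integral 2-cocycles of the nerve of a good cover with the
line bundle `L n` of `n` (`NerveIn`), and the integrality of the intersection numbers.
-/

set_option linter.unusedSectionVars false

open scoped Manifold ContDiff ComplexConjugate
open Set Matrix
open Vale.Agent.P267 Vale.Agent.P267.FL Vale.Agent.P267.RR Vale.Agent.P267.BlockC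

noncomputable section

namespace Vale.Agent.P290.H445

/-- What the topology of `Y` gives: the group `Z` of integral 2-cocycles of a finite good cover and
the line bundle `L n` of the cocycle `n`. -/
structure NerveIn (Y : Type) [TopologicalSpace Y] [ChartedSpace FL.C2 Y] where
  Z : Type
  [grp : AddCommGroup Z]
  [fin : Module.Finite ℤ Z]
  L : Z → ALB Y
  add : ∀ m n, ExactTwo ((L (m + n)).L.curv - ((L m).L.curv + (L n).L.curv))
  surj : ∀ M : ALB Y, ∃ n, ExactTwo (M.L.curv - (L n).L.curv)
  dual : ∀ φ : Z →+ ℤ, (∀ n, ExactTwo (L n).L.curv → φ n = 0) →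
    ∃ m, ∀ n, isec (L n).L (L m).L = φ n
  span : ∀ F : TwoF Y, F.Smooth → F.Closed → ∃ (k : ℕ) (t : Fin k → ℂ) (n : Fin k → Z),
    ExactTwo (F - ∑ i, t i • (L (n i)).L.curv)

attribute [instance] NerveIn.grp NerveIn.fin

variable {Y : Type} [TopologicalSpace Y] [ChartedSpace FL.C2 Y]

/-- the subspace of exact forms -/
def exactSub (H : FormFacts Y) : Submodule ℂ (TwoF Y) where
  carrier := {F | ExactTwo F}
  add_mem' := fun {F G} hF hG => by
    have h := H.exact_sub F ((-1 : ℂ) • G) hF (H.exact_smul (-1) G hG)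
    change ExactTwo (F + G)
    convert h using 1
    rw [neg_smul, one_smul, sub_neg_eq_add]
  zero_mem' := H.exactTwo_zero
  smul_mem' := fun c F hF => H.exact_smul c F hF

theorem mem_exactSub (H : FormFacts Y) {F : TwoF Y} : F ∈ exactSub H ↔ ExactTwo F := Iff.rfl

/-- **Unimodularity** from duality, spanning and integrality. -/
theorem NerveIn.unimod (D : NerveIn Y) (H : FormFacts Y)
    (int : ∀ L L' : ALB Y, ∃ k : ℤ, isec L.L L'.L = k) : ∃ N, Unimod Y N := by
  classical
  let Q := TwoF Y ⧸ exactSub H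
  let q : TwoF Y →ₗ[ℂ] Q := (exactSub H).mkQ
  have hq : ∀ F G : TwoF Y, q F = q G ↔ ExactTwo (F - G) := fun F G => by
    change (Submodule.Quotient.mk F : Q) = Submodule.Quotient.mk G ↔ _
    rw [Submodule.Quotient.eq, mem_exactSub]
  -- the class map
  have hadd : ∀ m n, q (D.L (m + n)).L.curv = q (D.L m).L.curv + q (D.L n).L.curv := by
    intro m n
    rw [← map_add, hq]
    exact D.add m n
  let cl : D.Z →+ Q := AddMonoidHom.mk' (fun n => q (D.L n).L.curv) hadd
  have hcl : ∀ n, cl n = q (D.L n).L.curv := fun _ => rfl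
  have hadd1 : ∀ m n (N : ALB Y), isec (D.L (m + n)).L N.L =
      isec (D.L m).L N.L + isec (D.L n).L N.L := by
    intro m n N
    obtain ⟨A, hA, hAF⟩ := D.add m n
    have h1 : (D.L (m + n)).L.curv = A.d + ((D.L m).L.curv + (D.L n).L.curv) := by
      rw [hAF]; abel
    rw [isec_eq, isec_eq, isec_eq, h1, H.pair_add _ _ _ (H.smooth_d A hA)
      (H.smooth_add _ _ (H.curv_smooth _) (H.curv_smooth _)) (H.curv_smooth _),
      H.pair_d A _ hA (H.curv_smooth _) (H.curv_closed _), zero_add,
      H.pair_add _ _ _ (H.curv_smooth _) (H.curv_smooth _) (H.curv_smooth _)]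
    ring
  let B : D.Z →+ D.Z →+ ℂ := AddMonoidHom.mk' (fun n => AddMonoidHom.mk'
      (fun m => isec (D.L n).L (D.L m).L) (fun m m' => by
        rw [isec_comm, hadd1, isec_comm (D.L m).L, isec_comm (D.L m').L]))
      (fun n n' => by
        ext m
        exact hadd1 n n' (D.L m))
  have hB : ∀ n m, B n m = isec (D.L n).L (D.L m).L := fun _ _ => rfl
  have hzero : ∀ n, cl n = 0 ↔ ExactTwo (D.L n).L.curv := by
    intro n
    rw [hcl, ← map_zero q, hq, sub_zero]
  obtain ⟨r, E, G, h1, h2, h3⟩ := unimodular_of_dual' cl B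
    (fun n m hm => by
      rw [hB, isec_comm, isec_eq, H.pair_of_exact ((hzero m).1 hm) (H.curv_smooth _)
        (H.curv_closed _), mul_zero])
    (fun φ hφ => D.dual φ fun n hn => hφ n ((hzero n).2 hn))
    (fun n m => int _ _)
  refine ⟨r, fun i => D.L (E i), G, h1, h2, ?_, ?_, ?_⟩
  · -- spanning with unique coefficients
    intro F hF hF'
    have hex : ∃ t : Fin r → ℂ, ExactTwo (F - ∑ i, t i • (D.L (E i)).L.curv) := by
      obtain ⟨k, t, n, h⟩ := D.span F hF hF'
      choose c hc using fun i => (h3 (n i)).exists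
      refine ⟨fun j => ∑ i, t i * (c i j : ℂ), ?_⟩
      rw [← hq] at h ⊢
      rw [h, map_sum, map_sum]
      have h4 : ∀ i, q (t i • (D.L (n i)).L.curv) =
          ∑ j, (t i * (c i j : ℂ)) • q (D.L (E j)).L.curv := by
        intro i
        rw [map_smul, ← hcl, hc i, Finset.smul_sum]
        refine Finset.sum_congr rfl fun j _ => ?_
        rw [hcl, ← Int.cast_smul_eq_zsmul ℂ, smul_smul]
      rw [Finset.sum_congr rfl fun i _ => h4 i, Finset.sum_comm]
      refine Finset.sum_congr rfl fun j _ => ?_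
      rw [map_smul, Finset.sum_smul]
    obtain ⟨t, ht⟩ := hex
    refine ⟨t, ht, fun s hs => ?_⟩
    -- uniqueness
    have h5 : ∀ j, ∑ i, t i * pair (D.L (E i)).L.curv (D.L (E j)).L.curv =
        ∑ i, s i * pair (D.L (E i)).L.curv (D.L (E j)).L.curv := by
      intro j
      rw [← H.pair_of_exact_sub t ht (H.curv_smooth _) (H.curv_closed _),
        ← H.pair_of_exact_sub s hs (H.curv_smooth _) (H.curv_closed _)]
    have hpi : (-(1 / (4 * (Real.pi : ℂ) ^ 2))) ≠ 0 := by
      have := Real.pi_ne_zero
      refine neg_ne_zero.2 (one_div_ne_zero (mul_ne_zero (by norm_num) (pow_ne_zero _ ?_)))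
      exact_mod_cast this
    have h6 : ∀ j, ∑ i, (t i - s i) * (G i j : ℂ) = 0 := by
      intro j
      have h7 := h5 j
      have h8 : ∀ i, (G i j : ℂ) = -(1 / (4 * (Real.pi : ℂ) ^ 2)) *
          pair (D.L (E i)).L.curv (D.L (E j)).L.curv := fun i => by
        rw [← h1 i j, hB, isec_eq]
      have h9 : ∑ i, (t i - s i) * (G i j : ℂ) = -(1 / (4 * (Real.pi : ℂ) ^ 2)) *
          (∑ i, t i * pair (D.L (E i)).L.curv (D.L (E j)).L.curv -
            ∑ i, s i * pair (D.L (E i)).L.curv (D.L (E j)).L.curv) := by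
        rw [← Finset.sum_sub_distrib, Finset.mul_sum]
        refine Finset.sum_congr rfl fun i _ => ?_
        rw [h8]
        ring
      rw [h9, h7, sub_self, mul_zero]
    have hdet : IsUnit (G.map (Int.cast : ℤ → ℂ)).det := by
      have := h2.map (Int.castRingHom ℂ)
      rwa [RingHom.map_det] at this
    have h10 : vecMul (fun i => t i - s i) (G.map (Int.cast : ℤ → ℂ)) = 0 := by
      funext j
      simpa [vecMul, dotProduct] using h6 j
    have h11 : (fun i => t i - s i) = 0 := by
      have h12 := congrArg (fun v => vecMul v (G.map (Int.cast : ℤ → ℂ))⁻¹) h10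
      simpa [vecMul_vecMul, Matrix.mul_nonsing_inv _ hdet] using h12
    funext i
    have := congrFun h11 i
    simp only [Pi.zero_apply] at this
    exact (sub_eq_zero.1 this).symm
  · -- every line bundle
    intro M
    obtain ⟨n, hn⟩ := D.surj M
    obtain ⟨k, hk, -⟩ := h3 n
    refine ⟨k, ?_⟩
    rw [← hq] at hn ⊢
    rw [hn, ← hcl, hk, map_sum]
    refine Finset.sum_congr rfl fun j _ => ?_
    rw [hcl, ← Int.cast_smul_eq_zsmul ℂ]
    exact (q.map_smul _ _).symm
  · -- every integral combination
    intro k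
    refine ⟨D.L (∑ i, k i • E i), ?_⟩
    rw [← hq, ← hcl, map_sum, map_sum]
    refine Finset.sum_congr rfl fun j _ => ?_
    rw [map_zsmul, hcl, ← Int.cast_smul_eq_zsmul ℂ]
    exact (q.map_smul _ _).symm

end Vale.Agent.P290.H445
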