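import Vale.Agent.P290.H445.IntK
import Vale.Agent.P290.H342.PenSec
import Vale.Agent.P267.H399.LBCurv

/-!
# P290: pencils of sections from Riemann-Roch

On a K3 surface, a line bundle orthogonal to `Om`, with nonnegative square, whose dual has no
holomorphic sections, has a holomorphic structure with two independent holomorphic sections.
-/

set_option linter.unusedVariables false
set_option linter.unusedSectionVars false

open scoped Manifold ContDiff ComplexConjugate Topology
open Set Filter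

noncomputable section

namespace Vale.Agent.P290.H445

open Vale.Agent.P267 Vale.Agent.P267.FL Vale.Agent.P267.RR Vale.Agent.P267.H821

variable (X : All.K3) {ι : Type} [Fintype ι] [DecidableEq ι]

/-- nonzero elements of `H0` are holomorphic sections in the sense of helper821 -/
theorem isSection_of_mem {L : LB X.X ι} {a : X.X → Fin 2 → ℂ} (ha : L.IsHol a)
    {s : X.X → EuclideanSpace ℂ ι} (hs : s ∈ H0 L a 0) (h0 : s ≠ 0) : IsSection L a 0 s := by
  obtain ⟨⟨h1, h2⟩, h3⟩ := (mem_H0 L a 0).1 hs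
  refine isSection_of_connected ha h1 h2 (fun x => congrFun h3 x) ?_
  by_contra hcon
  push Not at hcon
  exact h0 (funext hcon)

theorem exists_pencil (hS : SerreStmt X.X) (hR : RRStmt X.X) (h : H01 X) (L : LB X.X ι)
    (h0 : intX (fun x => Om X x * L.F02 x) = 0) (hpos : 0 ≤ (isec L L).re)
    (hdual : ∀ (a : X.X → Fin 2 → ℂ) (s : X.X → EuclideanSpace ℂ ι), ¬ IsSection L.dual a 0 s) :
    ∃ (a : X.X → Fin 2 → ℂ) (s0 s1 : X.X → EuclideanSpace ℂ ι), L.IsHol a ∧
      ∀ c d : ℂ, (c ≠ 0 ∨ d ≠ 0) → IsSection L a 0 (fun x => c • s0 x + d • s1 x) := by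
  obtain ⟨a, n, ha, h1, h2⟩ := rr_of_orth X hS hR h L L.reg_F02 h0
  have hn : 0 ≤ n := by
    rw [h1] at hpos
    have h3 : (0 : ℝ) ≤ 2 * (n : ℝ) := by simpa using hpos
    have h4 : (0 : ℝ) ≤ n := by linarith
    exact_mod_cast h4
  have h3 : RR.h0 L.dual (-a) 0 = 0 := by
    rw [RR.h0]
    by_contra hne
    have h4 : 0 < Module.finrank ℂ (H0 L.dual (-a) 0) := Nat.pos_of_ne_zero hne
    have h5 : Nontrivial (H0 L.dual (-a) 0) := Module.nontrivial_of_finrank_pos h4
    obtain ⟨s, hs⟩ := exists_ne (0 : H0 L.dual (-a) 0)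
    exact hdual (-a) s.1 (isSection_of_mem X ha.dual s.2 fun h6 => hs (Subtype.ext h6))
  rw [h3] at h2
  have h4 : 2 ≤ Module.finrank ℂ (H0 L a 0) := by
    have : (2 : ℤ) ≤ (RR.h0 L a 0 : ℤ) := by
      push_cast at h2
      linarith
    exact_mod_cast this
  have h5 : 1 < Module.rank ℂ (H0 L a 0) := by
    have h6 : (1 : ℕ) < Module.finrank ℂ (H0 L a 0) := h4
    exact_mod_cast Module.lt_rank_of_lt_finrank h6
  have h7 : Nontrivial (H0 L a 0) :=
    Module.nontrivial_of_finrank_pos (R := ℂ) (lt_of_lt_of_le two_pos h4)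
  obtain ⟨s0, hs0⟩ := exists_ne (0 : H0 L a 0)
  obtain ⟨s1, hs1⟩ := exists_linearIndependent_pair_of_one_lt_rank h5 hs0
  refine ⟨a, s0.1, s1.1, ha, fun c d hcd => ?_⟩
  have h8 : c • s0 + d • s1 ≠ 0 := by
    intro h9
    have := LinearIndependent.pair_iff.1 hs1 c d h9
    rcases hcd with h | h
    · exact h this.1
    · exact h this.2
  exact isSection_of_mem X ha (c • s0 + d • s1).2 fun h9 => h8 (Subtype.ext h9)

end Vale.Agent.P290.H445
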