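import Vale.Agent.P290.H445.Twist
import Vale.Agent.P290.H310.Crit

/-!
# P290: integrality and evenness of the intersection form of an elliptic K3 surface (2)
-/

set_option linter.unusedVariables false
set_option linter.unusedSectionVars false

open scoped Manifold ContDiff ComplexConjugate Topology
open Set Filter

noncomputable section

namespace Vale.Agent.P290.H445

open Vale.Agent.P267 Vale.Agent.P267.FL Vale.Agent.P267.RR Vale.Agent.P267.BlockC
  Vale.Agent.P267.H332 Vale.Agent.P267.H757 Vale.Agent.P290.H342 Vale.Agent.P290.H686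

section form

variable {Y : Type} [TopologicalSpace Y] [ChartedSpace FL.C2 Y]

theorem pair_congr_left (H : FormFacts Y) {F F' G : TwoF Y} (h : ExactTwo (F - F'))
    (hF' : F'.Smooth) (hG : G.Smooth) (hG' : G.Closed) : pair F G = pair F' G := by
  obtain ⟨A, hA, hAF⟩ := h
  have h1 : F = A.d + F' := by rw [hAF]; abel
  rw [h1, H.pair_add _ _ _ (H.smooth_d A hA) hF' hG, H.pair_d A G hA hG hG', zero_add]

theorem isec_congr (H : FormFacts Y) {M M' : ALB Y} (h : ExactTwo (M.L.curv - M'.L.curv))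
    (N : ALB Y) : isec M.L N.L = isec M'.L N.L := by
  rw [BlockC.isec_eq, BlockC.isec_eq, pair_congr_left H h (H.curv_smooth _) (H.curv_smooth _)
    (H.curv_closed _)]

/-- the intersection form on the cocycles of the nerve -/
def NerveIn.form (D : NerveIn Y) (H : FormFacts Y) : D.Z →+ D.Z →+ ℂ :=
  have hadd1 : ∀ m n (N : ALB Y), isec (D.L (m + n)).L N.L =
      isec (D.L m).L N.L + isec (D.L n).L N.L := by
    intro m n N
    obtain ⟨A, hA, hAF⟩ := D.add m n
    have h1 : (D.L (m + n)).L.curv = A.d + ((D.L m).L.curv + (D.L n).L.curv) := by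
      rw [hAF]; abel
    rw [BlockC.isec_eq, BlockC.isec_eq, BlockC.isec_eq, h1, H.pair_add _ _ _ (H.smooth_d A hA)
      (H.smooth_add _ _ (H.curv_smooth _) (H.curv_smooth _)) (H.curv_smooth _),
      H.pair_d A _ hA (H.curv_smooth _) (H.curv_closed _), zero_add,
      H.pair_add _ _ _ (H.curv_smooth _) (H.curv_smooth _) (H.curv_smooth _)]
    ring
  AddMonoidHom.mk' (fun n => AddMonoidHom.mk'
      (fun m => isec (D.L n).L (D.L m).L) (fun m m' => by
        rw [BlockC.isec_comm, hadd1, BlockC.isec_comm (D.L m).L, BlockC.isec_comm (D.L m').L]))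
      (fun n n' => by
        ext m
        exact hadd1 n n' (D.L m))

theorem NerveIn.form_apply (D : NerveIn Y) (H : FormFacts Y) (n m : D.Z) :
    D.form H n m = isec (D.L n).L (D.L m).L := rfl

end form

/-- **Integrality and evenness of the intersection form on an elliptic K3 surface.** -/
theorem int_even (X : All.K3) (hX : H95.Elliptic X) (hS : ∀ Y : All.K3, SerreStmt Y.X)
    (hR : ∀ Y : All.K3, RRStmt Y.X) (D : NerveIn X.X) :
    (∀ M : ALB X.X, ∃ k : ℤ, isec M.L M.L = 2 * k) ∧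
      ∀ M M' : ALB X.X, ∃ k : ℤ, isec M.L M'.L = k := by
  obtain ⟨C, π, hπ, hnc⟩ := hX
  have i1 := C.manifold
  have i2 := C.t2
  have i3 : IsManifold 𝓘(ℂ) 1 C.C := IsManifold.of_le (n := ω) le_top
  have i4 : IsManifold 𝓘(ℂ, All.C2) 1 X.X := IsManifold.of_le (n := ω) le_top
  have hπ' : MDifferentiable 𝓘(ℂ, FL.C2) 𝓘(ℂ) π := fun x => H310.holC_iff_fl.1 (hπ x)
  have hπ2 : MDifferentiable 𝓘(ℂ, All.C2) 𝓘(ℂ) π := fun x => H310.holC_iff_md.1 (hπ x)
  have H := ff X
  obtain ⟨x0⟩ : Nonempty X.X := inferInstance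
  -- a disc around a value of `π`
  obtain ⟨r, hr0, hrb⟩ : ∃ r : ℝ, 0 < r ∧ Metric.closedBall (chartAt ℂ (π x0) (π x0)) (2 * r) ⊆
      (chartAt ℂ (π x0)).target := by
    obtain ⟨ε, hε, h⟩ := Metric.isOpen_iff.1 (chartAt ℂ (π x0)).open_target _
      (mem_chart_target ℂ (π x0))
    refine ⟨ε / 4, by positivity, ?_⟩
    refine (Metric.closedBall_subset_ball ?_).trans h
    linarith
  obtain ⟨T, hTt, hTc, hTr⟩ := H867.exists_cutData X.volForm hπ2 (chart_mem_atlas ℂ (π x0)) hr0 hrb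
  have hnl : ∀ (c : C.C) (y : X.X), ∃ᶠ z in 𝓝 y, π z ≠ c := H143.frequently_ne hπ' hnc
  have hN := H867.isNormFn_nD T hπ2 hnl
  have hx0 : x0 ∈ H867.WD T ∩ {x | dist (H867.hD T x) T.c₀ < T.r / 2} := by
    have h1 : T.t (π x0) = T.c₀ := by rw [hTt, hTc]
    refine ⟨⟨?_, ?_⟩, ?_⟩
    · rw [hTt]; exact mem_chart_source ℂ (π x0)
    · change T.t (π x0) ∈ Metric.ball T.c₀ (2 * T.r)
      rw [h1]
      exact Metric.mem_ball_self (by have := T.hr; positivity)
    · change dist (T.t (π x0)) T.c₀ < T.r / 2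
      rw [h1, dist_self]
      have := T.hr
      positivity
  have hN0 : H867.nD T x0 = 0 := by
    have h1 := (H867.discFn T hπ2 hnl).locRep_near T.hr
    refine (h1.eq_zero_iff hx0).2 ?_
    change T.t (π x0) - T.c₀ = 0
    rw [hTt, hTc, sub_self]
  -- the class of the fibre
  obtain ⟨E, hE⟩ := nflbY X.X _ hN
  obtain ⟨e, he⟩ := D.surj E
  have hEe : ExactTwo (cF (H867.nD T) - (D.L e).L.curv) := by
    have := H342.exact_add hE he
    rwa [sub_add_sub_cancel] at this
  have hne : ¬ ExactTwo (D.L e).L.curv := by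
    intro h
    have h1 := H342.exact_add hEe h
    rw [sub_add_cancel] at h1
    obtain ⟨A, hA, hAd⟩ := h1
    exact ne_zero_of_exact (h01 X) hN hA hAd x0 hN0
  obtain ⟨φ, hφ0, hφe⟩ := D.cl_props H hne
  obtain ⟨m, hm⟩ := D.dual φ hφ0
  have hφe' : (φ e : ℂ) ≠ 0 := by exact_mod_cast hφe
  have hBm : D.form H m e ≠ 0 := by
    rw [D.form_apply, BlockC.isec_comm, hm e]
    exact hφe'
  have key := even_of_twists (D.form H) (fun x y => by
      rw [D.form_apply, D.form_apply, BlockC.isec_comm]) e m hBm (by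
    intro c hc
    rw [D.form_apply] at hc ⊢
    have hcs := (D.L c).L.curv_smooth
    have hcc := (D.L c).L.curv_closed
    have hk : pair (H867.eta T) (D.L c).L.curv ≠ 0 := by
      have h1 : pair (H867.eta T) (D.L c).L.curv = -pair (D.L e).L.curv (D.L c).L.curv := by
        have h2 : ExactTwo (H867.eta T - (-1 : ℂ) • (D.L e).L.curv) := by
          have h3 : ExactTwo ((H867.kD T).d) := ⟨_, H867.kD_smooth T hπ2, rfl⟩
          have h4 := H342.exact_sub h3 hEe
          rw [H867.eta_eq T hπ2 hnl]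
          convert h4 using 1
          rw [neg_one_smul]
          abel
        rw [pair_congr_left H h2 (H.smooth_smul _ _ (D.L e).L.curv_smooth) hcs hcc,
          H.pair_smul _ _ _ (D.L e).L.curv_smooth hcs, neg_one_mul]
      rw [h1, neg_ne_zero]
      intro h0
      apply hc
      rw [BlockC.isec_eq, BlockC.pair_comm, h0, mul_zero]
    set b : ℂ := pair (OmF X) (D.L c).L.curv / pair (H867.eta T) (D.L c).L.curv with hb
    refine even_of_pair_zero X (H867.Xb T hπ2 b) (hS _) (hR _) (H867.idb T hπ2 b)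
      (H867.isDiffeo_idb T hπ2 b) (D.L c).L ?_
    have h5 : pb2 (H867.idb T hπ2 b) (OmF (H867.Xb T hπ2 b)) = OmF X - b • H867.eta T :=
      H867.pb2_OmF_eq T hπ2 b
    rw [h5, sub_eq_add_neg, ← neg_smul, H.pair_add _ _ _ (OmF_smooth X)
      (H.smooth_smul _ _ (H867.eta_smooth T hπ2)) hcs,
      H.pair_smul _ _ _ (H867.eta_smooth T hπ2) hcs, hb]
    field_simp
    ring)
  obtain ⟨hev, hint⟩ := key
  refine ⟨fun M => ?_, fun M M' => ?_⟩
  · obtain ⟨n, hn⟩ := D.surj M
    obtain ⟨k, hk⟩ := hev n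
    refine ⟨k, ?_⟩
    rw [isec_congr H hn, BlockC.isec_comm, isec_congr H hn]
    exact hk
  · obtain ⟨n, hn⟩ := D.surj M
    obtain ⟨n', hn'⟩ := D.surj M'
    obtain ⟨k, hk⟩ := hint n n'
    refine ⟨k, ?_⟩
    rw [isec_congr H hn, BlockC.isec_comm, isec_congr H hn', BlockC.isec_comm]
    exact hk

/-- **`UData` and evenness from the topological input.** -/
theorem exists_uData (X : All.K3) (hX : H95.Elliptic X) (hS : ∀ Y : All.K3, SerreStmt Y.X)
    (hR : ∀ Y : All.K3, RRStmt Y.X) (D : NerveIn X.X) :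
    ∃ (N : ℕ) (U : UData X.X N), ∀ k, Even (U.B k k) := by
  obtain ⟨h1, h2⟩ := int_even X hX hS hR D
  obtain ⟨N, hN⟩ := D.unimod (ff X) h2
  obtain ⟨U⟩ := nonempty_uData_iff.2 hN
  refine ⟨N, U, fun k => ?_⟩
  obtain ⟨L, hL⟩ := U.exists_c1 (H445.lbFacts X.X) k
  obtain ⟨j, hj⟩ := h1 L
  rw [U.isec_c1 (intAx (X := X.X)) (H445.lbFacts X.X), hL] at hj
  refine (even_iff_two_dvd).2 ⟨j, ?_⟩
  exact_mod_cast hj

end Vale.Agent.P290.H445
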