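import Vale.Agent.P290.H342.LatInst
import Vale.Agent.P290.H686.TwLatU
import Vale.Agent.P290.H362.ClND
import Vale.Agent.P290.H445.Parity
import Vale.Agent.P267.H994.Exist

/-!
# P290 (helper445): every elliptic K3 surface is Oka, from the Riemann-Roch block
-/

set_option linter.unusedSectionVars false

open scoped Manifold ContDiff ComplexConjugate Topology
open Set

noncomputable section

namespace Vale.Agent.P290.H445

open Vale.Agent.P267 Vale.Agent.P267.FL Vale.Agent.P267.BlockC Vale.Agent.P267.RR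
open Vale.Agent.P267.H332 Vale.Agent.P267.H757 Vale.Agent.P290.H342 Vale.Agent.P290.H686
open Vale.Agent.P290.H362 (Geo Ell TwLat)
open Vale.Agent.P290.H867 (CutData nD)

theorem c4_ne : (-(4 * (Real.pi : ℂ) ^ 2)) ≠ 0 :=
  neg_ne_zero.2 (mul_ne_zero (by norm_num) (pow_ne_zero 2 (Complex.ofReal_ne_zero.2 Real.pi_ne_zero)))

section

attribute [local instance] H867.manifoldRS H867.manifoldK3 H867.t2RS

variable (hF : ∀ Y : All.K3, FiniteStmt Y.X) (hS : ∀ Y : All.K3, SerreStmt Y.X)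
  (hR : ∀ Y : All.K3, RRStmt Y.X) {X : All.K3} {N : ℕ} (U : UData X.X N)

theorem per_aux {π : X.X → H610.sphere.C} (D : CutData X.volForm π)
    (hπ : MDifferentiable 𝓘(ℂ, ℂ × ℂ) 𝓘(ℂ) π) (e : Fin N → ℤ)
    (hnl : ∀ (c : H610.sphere.C) (y : X.X), ∃ᶠ z in 𝓝 y, π z ≠ c) (h1 : U.clN (nD D) = e)
    (b b' : ℂ) (hb : b * (-(4 * (Real.pi : ℂ) ^ 2)) = b') (x : Fin N → ℤ) :
    perU (uXb D hπ b U) x = perU U x + b' * (U.B x e : ℤ) := by
  have h2 := per_uXb D hπ b U hnl x
  rw [h1, ← mul_assoc, hb, U.B_symm e x] at h2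
  exact h2

/-- **The lattice half of the twists.** -/
theorem twLat (e : Fin N → ℤ) (A : Ell (geo U (hF X) (hS X) (hR X)).T e) :
    TwLat (geo U (hF X) (hS X) (hR X)) e A.π := by
  intro D hπ b' _
  have hb : b' / (-(4 * (Real.pi : ℂ) ^ 2)) * (-(4 * (Real.pi : ℂ) ^ 2)) = b' :=
    div_mul_cancel₀ _ c4_ne
  generalize b' / (-(4 * (Real.pi : ℂ) ^ 2)) = b at hb
  refine ⟨b, geo (uXb D hπ b U) (hF _) (hS _) (hR _), AddEquiv.refl (Fin N → ℤ), ?_, ?_, ?_⟩
  · intro x y
    rfl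
  · exact fun x => per_aux U D hπ e A.frequently_ne (H362.cl_nD A D hπ) b b' hb x
  · exact fun N' hN' hV => cl_uXb D hπ b U hN' hV

end

/-- **Every elliptic K3 surface is Oka, from Riemann-Roch and Serre duality on K3 surfaces.** -/
theorem goal (hF : ∀ Y : All.K3, FiniteStmt Y.X) (hS : ∀ Y : All.K3, SerreStmt Y.X)
    (hR : ∀ Y : All.K3, RRStmt Y.X) : H95.Goal := by
  intro X hX
  obtain ⟨D⟩ := Vale.Agent.P267.H994.exists_nerveIn X.X
  obtain ⟨N, U, heven⟩ := exists_uData X hX hS hR D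
  exact isOka_of_uData U hX (hF X) (hS X) (hR X) heven fun e A _ => twLat hF hS hR U e A

/-- **Every elliptic K3 surface is Oka, from the Riemann-Roch block.** -/
theorem goal_of_rrBlock (h : RRBlock) : H95.Goal :=
  goal (fun Y => (h Y.X).1) (fun Y => (h Y.X).2.1) fun Y => (h Y.X).2.2.1

end Vale.Agent.P290.H445
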