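import Vale.Agent.P290.H445.UniK
import Vale.Agent.P290.H445.Even
import Vale.Agent.P290.H445.Rrf
import Vale.Agent.P290.H867.OmB
import Vale.Agent.P290.H686.LBPull
import Vale.Agent.P290.H342.Inst
import Vale.Agent.P290.H416.K3FL
import Vale.Agent.P290.H143.Fibre
import Vale.Agent.P290.H95.Goal
import Vale.Agent.P267.H662.CurvThm

/-!
# P290: integrality and evenness of the intersection form of an elliptic K3 surface

Riemann-Roch on the twists `X_b`: a line bundle `L` with `L.e ≠ 0` becomes holomorphic on `X_b` for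
one `b`, hence `L²` is even; integrality follows for all line bundles.
-/

set_option linter.unusedVariables false
set_option linter.unusedSectionVars false

open scoped Manifold ContDiff ComplexConjugate Topology
open Set Filter

noncomputable section

namespace Vale.Agent.P290.H445

open Vale.Agent.P267 Vale.Agent.P267.FL Vale.Agent.P267.RR Vale.Agent.P267.BlockC
  Vale.Agent.P267.H332 Vale.Agent.P267.H757 Vale.Agent.P290.H342 Vale.Agent.P290.H686

/-- the vanishing of `H^{0,1}` holds (helper416) -/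
theorem h01 (X : All.K3) : H01 X := fun _ ha h0 => H416.dbar_solve ha h0

/-- the form facts hold -/
theorem ff (X : All.K3) : FormFacts X.X := formFacts (H662.curvFacts X.X)

theorem isec_eq_pair {Y : Type} [TopologicalSpace Y] [ChartedSpace FL.C2 Y] {ι ι' : Type}
    [Fintype ι] [DecidableEq ι] [Fintype ι'] [DecidableEq ι'] (L : LB Y ι) (L' : LB Y ι') :
    isec L L' = -(1 / (4 * (Real.pi : ℂ) ^ 2)) * pair L.curv L'.curv := rfl

/-- Riemann-Roch on a twist. -/
theorem even_of_pair_zero (X Y : All.K3) (hS : SerreStmt Y.X) (hR : RRStmt Y.X)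
    (φ : X.X ≃ₜ Y.X) (hφ : IsDiffeo φ) {ι : Type} [Fintype ι] [DecidableEq ι] (L : LB X.X ι)
    (h0 : pair (pb2 φ (OmF Y)) L.curv = 0) : ∃ k : ℤ, isec L L = 2 * k := by
  set L' : LB Y.X ι := pbL φ.symm hφ.smooth' L with hL'
  have hc : L'.curv = pb2 φ.symm L.curv := curv_pbL _ _
  have h1 : isec L' L' = isec L L := by
    rw [isec_eq_pair, isec_eq_pair, hc, pair, pair,
      intX_wedge_pb2' φ.symm hφ.symm L.curv_smooth L.curv_smooth]
  have h2 : intX (fun x => Om Y x * L'.F02 x) = 0 := by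
    have h3 : pair (OmF Y) L'.curv = 0 := by
      rw [hc, pair, ← intX_wedge_pb2' φ hφ (OmF_smooth Y) (by
        rw [← hc]; exact L'.curv_smooth), pb2_pb2_symm φ hφ]
      exact h0
    rw [pair_OmF] at h3
    exact h3
  obtain ⟨a, n, -, h4, -⟩ := rr_of_orth Y hS hR (h01 Y) L' L'.reg_F02 h2
  exact ⟨n, by rw [← h1, h4]⟩

/-- the class map of the nerve -/
theorem NerveIn.cl_props {Y : Type} [TopologicalSpace Y] [ChartedSpace FL.C2 Y] (D : NerveIn Y)
    (H : FormFacts Y) {e : D.Z} (he : ¬ ExactTwo (D.L e).L.curv) :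
    ∃ φ : D.Z →+ ℤ, (∀ n, ExactTwo (D.L n).L.curv → φ n = 0) ∧ φ e ≠ 0 := by
  classical
  let Q := TwoF Y ⧸ exactSub H
  let q : TwoF Y →ₗ[ℂ] Q := (exactSub H).mkQ
  have hq : ∀ F G : TwoF Y, q F = q G ↔ ExactTwo (F - G) := fun F G => by
    change (Submodule.Quotient.mk F : Q) = Submodule.Quotient.mk G ↔ _
    rw [Submodule.Quotient.eq, mem_exactSub]
  have hadd : ∀ m n, q (D.L (m + n)).L.curv = q (D.L m).L.curv + q (D.L n).L.curv := by
    intro m n
    rw [← map_add, hq]
    exact D.add m n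
  let cl : D.Z →+ Q := AddMonoidHom.mk' (fun n => q (D.L n).L.curv) hadd
  have hzero : ∀ n, cl n = 0 ↔ ExactTwo (D.L n).L.curv := by
    intro n
    change q (D.L n).L.curv = 0 ↔ _
    rw [← map_zero q, hq, sub_zero]
  have t1 : Module.IsTorsionFree ℤ Q := by
    refine ⟨fun n hn => ?_⟩
    intro v w h
    have hn0 : (n : ℂ) ≠ 0 := by
      have : n ≠ 0 := by
        rintro rfl
        exact (isRegular_iff_ne_zero.1 hn) rfl
      exact_mod_cast this
    simp only at h
    have h1 : (n : ℂ) • v = (n : ℂ) • w := by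
      rw [Int.cast_smul_eq_zsmul, Int.cast_smul_eq_zsmul]
      exact h
    have h2 := congrArg (fun u => (n : ℂ)⁻¹ • u) h1
    simpa [smul_smul, inv_mul_cancel₀ hn0] using h2
  let R : Submodule ℤ Q := LinearMap.range cl.toIntLinearMap
  have hfin : Module.Finite ℤ R := inferInstance
  have hfree : Module.Free ℤ R := inferInstance
  let x : R := ⟨cl e, ⟨e, rfl⟩⟩
  have hx : x ≠ 0 := fun h => he ((hzero e).1 (congrArg Subtype.val h))
  obtain ⟨f, hf⟩ : ∃ f : Module.Dual ℤ R, f x ≠ 0 := by
    by_contra hcon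
    push Not at hcon
    exact hx ((Module.forall_dual_apply_eq_zero_iff ℤ x).1 hcon)
  refine ⟨(f.comp (cl.toIntLinearMap.rangeRestrict)).toAddMonoidHom, fun n hn => ?_, hf⟩
  have : cl.toIntLinearMap.rangeRestrict n = 0 := Subtype.ext ((hzero n).2 hn)
  change f (cl.toIntLinearMap.rangeRestrict n) = 0
  rw [this, map_zero]

end Vale.Agent.P290.H445
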